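import Vale.Agent.P286.Ad.Irr

/-!
# Quantum geometric Langlands for the projective line and the groups `G₂`, `F₄`, `E₈`

The simple groups of the types `G₂`, `F₄` and `E₈` are both adjoint and simply connected, all
automorphisms of their Lie algebras are inner, and they are their own Langlands duals.  So if `𝔤` is
an integral form of the Lie algebra of one of these types then the group is
`G = {x ∈ SL(𝔤) : x preserves the bracket}`, and `G^∨ = G`.  For all irrational `c` the DG categories
`D_c(Bun_G(ℙ¹))` and `D_{-1/(r c)}(Bun_{G^∨}(ℙ¹))` are equivalent; both are equivalent to the DG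
category of `D`-modules on `BG`.
-/

namespace Vale.Agent.Results.P286.GenusZeroExceptional

open Vale.Agent.P286.St Vale.Agent.P286.Ad

/-- The types of the exceptional simple groups which are their own Langlands duals. -/
inductive Typ : Type
  | G2 : Typ
  | F4 : Typ
  | E8 : Typ

/-- The rank. -/
def Typ.rank : Typ → ℕ
  | G2 => 2
  | F4 => 4
  | E8 => 8

/-- The Cartan matrix. -/
def Typ.cartan : (t : Typ) → Matrix (Fin t.rank) (Fin t.rank) ℤ
  | G2 => CartanMatrix.G₂
  | F4 => CartanMatrix.F₄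
  | E8 => CartanMatrix.E₈

/-- The dual Coxeter number `h^∨`. -/
def Typ.h : Typ → ℕ
  | G2 => 4
  | F4 => 9
  | E8 => 30

/-- The lacing number `r`. -/
def Typ.r : Typ → ℕ
  | G2 => 3
  | F4 => 2
  | E8 => 1

/-- `L` is an integral form of the simple Lie algebra of type `t`. -/
def OfType (t : Typ) (L : LieC) : Prop := L.IsSemisimple ∧ L.HasCartan t.cartan

/-- The stack `Bun_G(ℙ¹)`, `G = Aut 𝔤`, with its canonical bundle `ω` and the twist
`(h^∨ - c)/(2 h^∨)`. -/
noncomputable def DBun (t : Typ) (L : LieC) (c : ℂ) : TSite :=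
  BunAd L (((t.h : ℂ) - c) / (2 * (t.h : ℂ)))

theorem Typ.h_pos (t : Typ) : 0 < t.h := by
  cases t <;> decide

theorem Typ.r_pos (t : Typ) : 0 < t.r := by
  cases t <;> decide

/-- Quantum geometric Langlands on the projective line at irrational level, for the exceptional
groups `G₂`, `F₄` and `E₈`; and `D`-modules on `Bun_G(ℙ¹)` for all semisimple `𝔤`. -/
theorem result :
    (∀ t : Typ, ∃ L : LieC, OfType t L) ∧
    (∀ (t : Typ) (L : LieC), OfType t L → ∀ c : ℂ, (∀ q : ℚ, c ≠ (q : ℂ)) →
      DGEquivalent (DBun t L c) (DBun t L (-1 / ((t.r : ℂ) * c))) ∧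
      DGEquivalent (DBun t L c) (BAd L) ∧
      ∃ K : Cx (DBun t L c), K.Cart ∧ ¬ K.Acyclic) ∧
    ∀ L : LieC, L.IsSemisimple → ∀ s : ℂ, (∀ q : ℚ, s ≠ (q : ℂ)) →
      DGEquivalent (BunAd L s) (BAd L) ∧ ∃ K : Cx (BunAd L s), K.Cart ∧ ¬ K.Acyclic := by
  refine ⟨?_, ?_, ?_⟩
  · rintro (_ | _ | _)
    · exact exists_gTwo
    · exact exists_fFour
    · exact exists_eEight
  · rintro t L ⟨hL, -⟩ c hc
    have h1 : DGEquivalent (DBun t L c) (BAd L) := main hL (not_resonant t.h_pos hc)
    have h2 : DGEquivalent (DBun t L (-1 / ((t.r : ℂ) * c))) (BAd L) :=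
      main hL (not_resonant t.h_pos (irrational_dual t.r_pos hc))
    exact ⟨h1.trans _ _ _ (h2.symm _ _), h1, nonzero_Bun L _⟩
  · intro L hL s hs
    exact ⟨main hL (nonres hs), nonzero_Bun L s⟩

end Vale.Agent.Results.P286.GenusZeroExceptional
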